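import Vale.Agent.P128.Spec2
import Vale.Agent.P128.Basic

/-!
# P128 piece K: glueing a competitor inside a disc
-/

open MeasureTheory Set Metric Filter
open scoped ENNReal Topology Real

noncomputable section

namespace Vale.Agent.P128.Cone

/-- Comparison at a given pair, separation assumed. -/
def RepAt (K : Set ℂ) (u : ℂ → ℝ) : Prop :=
  ∀ (S L : Set ℂ) (v : ℂ → ℝ), IsCompact S → IsClosed L →
    LocallyLipschitzOn Lᶜ v → L \ S = K \ S → (∀ z ∉ S ∪ K, v z = u z) →
    (∃ R₀ : ℝ, ∀ R, R₀ ≤ R → KeepsSeparation K L 0 R) →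
      energy K u S ≤ energy L v S

theorem repAt_of_genReplace (hR : GenReplaceSpec) {K : Set ℂ} {u : ℂ → ℝ} (h : IsGM K u) :
    RepAt K u := hR K u h

/-- If every piece sees one component of `Kᶜ` on the sphere, the glued set keeps separation. -/
theorem keepsSeparation_glue {K L : Set ℂ} {x : ℂ} {r : ℝ} (hKc : IsClosed K) (hLc : IsClosed L)
    (hsame : L \ closedBall x r = K \ closedBall x r) {ι : Type} {s : Finset ι} {U : ι → Set ℂ}
    (hU : ∀ i ∈ s, IsOpen (U i))
    (hdisj : ∀ i ∈ s, ∀ j ∈ s, i ≠ j → Disjoint (U i) (U j))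
    (hcov : ∀ z ∈ closedBall x r, z ∉ L → ∃ i ∈ s, z ∈ U i)
    (hK : ∀ z ∈ sphere x r, z ∉ L → z ∉ K)
    (hconn : ∀ i ∈ s, ∀ y ∈ U i, ∀ z ∈ U i, y ∈ sphere x r → z ∈ sphere x r → y ∉ L → z ∉ L →
      connectedComponentIn Kᶜ y = connectedComponentIn Kᶜ z)
    {R : ℝ} (hR : ‖x‖ + r < R) : KeepsSeparation K L 0 R := by
  classical
  let marker : ι → Set ℂ := fun i =>
    if hh : ∃ q, q ∈ U i ∧ q ∈ sphere x r ∧ q ∉ L then connectedComponentIn Kᶜ hh.choose else ∅
  let Φ : ℂ → Set ℂ := fun z =>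
    if z ∈ closedBall x r then (if hh : ∃ i, i ∈ s ∧ z ∈ U i then marker hh.choose else ∅)
    else connectedComponentIn Kᶜ z
  have hin : ∀ i ∈ s, ∀ z ∈ U i, z ∈ closedBall x r → Φ z = marker i := by
    intro i hi z hz hzB
    have hh : ∃ j, j ∈ s ∧ z ∈ U j := ⟨i, hi, hz⟩
    simp only [Φ, if_pos hzB, dif_pos hh]
    congr 1
    by_contra hne
    exact Set.disjoint_left.1 (hdisj _ hh.choose_spec.1 i hi hne) hh.choose_spec.2 hz
  have hout : ∀ z, z ∉ closedBall x r → Φ z = connectedComponentIn Kᶜ z := fun z hz => by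
    simp only [Φ, if_neg hz]
  have hKout : ∀ z, z ∉ closedBall x r → z ∉ L → z ∉ K := fun z hz hzL hzK => by
    have : z ∈ L \ closedBall x r := hsame.symm ▸ ⟨hzK, hz⟩
    exact hzL this.1
  have hloc : ∀ z ∉ L, ∀ᶠ y in 𝓝 z, Φ y = Φ z := by
    intro z hzL
    rcases lt_trichotomy (dist z x) r with hlt | heq | hgt
    · obtain ⟨i, hi, hzi⟩ := hcov z (mem_closedBall.2 hlt.le) hzL
      filter_upwards [((hU i hi).inter isOpen_ball).mem_nhds
        (show z ∈ U i ∩ ball x r from ⟨hzi, hlt⟩)] with y hy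
      rw [hin i hi y hy.1 (ball_subset_closedBall hy.2), hin i hi z hzi (mem_closedBall.2 hlt.le)]
    · obtain ⟨i, hi, hzi⟩ := hcov z (mem_closedBall.2 heq.le) hzL
      have hzK := hK z heq hzL
      have hm : marker i = connectedComponentIn Kᶜ z := by
        have hh : ∃ q, q ∈ U i ∧ q ∈ sphere x r ∧ q ∉ L := ⟨z, hzi, heq, hzL⟩
        simp only [marker, dif_pos hh]
        exact hconn i hi _ hh.choose_spec.1 z hzi hh.choose_spec.2.1 heq hh.choose_spec.2.2 hzL
      filter_upwards [((hU i hi).inter hKc.isOpen_compl.connectedComponentIn).mem_nhds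
        ⟨hzi, mem_connectedComponentIn hzK⟩] with y hy
      rw [hin i hi z hzi (mem_closedBall.2 heq.le)]
      by_cases hyB : y ∈ closedBall x r
      · exact hin i hi y hy.1 hyB
      · rw [hout y hyB, hm]
        exact (connectedComponentIn_eq hy.2).symm
    · have hzB : z ∉ closedBall x r := fun hh => hgt.not_ge (mem_closedBall.1 hh)
      filter_upwards [(isClosed_closedBall.isOpen_compl.inter
        hKc.isOpen_compl.connectedComponentIn).mem_nhds
          ⟨hzB, mem_connectedComponentIn (hKout z hzB hzL)⟩] with y hy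
      rw [hout y hy.1, hout z hzB]
      exact (connectedComponentIn_eq hy.2).symm
  intro a b ha hb hab hLab
  have hfar : ∀ q : ℂ, q ∉ ball (0 : ℂ) R ∪ K → q ∉ closedBall x r ∧ q ∉ L := by
    intro q hq
    have h1 : q ∉ closedBall x r := fun hh => hq (Or.inl (mem_ball_zero_iff.2
      (((norm_le_norm_add_norm_sub' q x).trans
        (add_le_add le_rfl (mem_closedBall_iff_norm.1 hh))).trans_lt hR)))
    refine ⟨h1, fun hqL => hq (Or.inr ?_)⟩
    have : q ∈ K \ closedBall x r := hsame ▸ ⟨hqL, h1⟩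
    exact this.1
  obtain ⟨haB, haL⟩ := hfar a ha
  obtain ⟨hbB, hbL⟩ := hfar b hb
  set C := connectedComponentIn Lᶜ a with hC
  have hCL : C ⊆ Lᶜ := connectedComponentIn_subset _ _
  have hbC : b ∈ C := hLab ▸ mem_connectedComponentIn hbL
  have hop : ∀ P : Set ℂ → Prop, IsOpen {y | y ∉ L ∧ P (Φ y)} := fun P =>
    isOpen_iff_mem_nhds.2 fun y hy => by
      filter_upwards [hLc.isOpen_compl.mem_nhds hy.1, hloc y hy.1] with w hw hw'
      exact ⟨hw, by rw [hw']; exact hy.2⟩
  have hsub : C ⊆ {y | y ∉ L ∧ Φ y = Φ a} := by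
    refine isPreconnected_connectedComponentIn.subset_left_of_subset_union (hop (· = Φ a))
      (hop (· ≠ Φ a)) (Set.disjoint_left.2 fun y h1 h2 => h2.2 h1.2) (fun y hy => ?_)
      ⟨a, mem_connectedComponentIn haL, haL, rfl⟩
    by_cases he : Φ y = Φ a
    · exact Or.inl ⟨hCL hy, he⟩
    · exact Or.inr ⟨hCL hy, he⟩
  have := (hsub hbC).2
  rw [hout a haB, hout b hbB] at this
  exact hab this.symm

/-- A function equal to `f` inside a sphere and to `u` outside is Lipschitz on a ball where both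
are, if they agree on the sphere. -/
theorem lipschitzOnWith_glue {f u v : ℂ → ℝ} {p x : ℂ} {ε r : ℝ} {Cf Cu : NNReal}
    (hf : LipschitzOnWith Cf f (ball p ε)) (hu : LipschitzOnWith Cu u (ball p ε))
    (hvf : ∀ y ∈ ball p ε, dist y x ≤ r → v y = f y)
    (hvu : ∀ y ∈ ball p ε, r < dist y x → v y = u y)
    (hfu : ∀ y ∈ ball p ε, dist y x = r → f y = u y) :
    LipschitzOnWith (max Cf Cu) v (ball p ε) := by
  have key : ∀ a ∈ ball p ε, ∀ b ∈ ball p ε, dist a x ≤ r → r < dist b x →
      dist (v a) (v b) ≤ (max Cf Cu : NNReal) * dist a b := by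
    intro a ha b hb har hbr
    obtain ⟨s, hs, hsr⟩ := intermediate_value_Icc (zero_le_one' ℝ)
      (f := fun s : ℝ => dist (AffineMap.lineMap a b s) x)
      ((AffineMap.lineMap_continuous.dist continuous_const).continuousOn)
      (show r ∈ Icc (dist (AffineMap.lineMap a b (0 : ℝ)) x) (dist (AffineMap.lineMap a b (1 : ℝ)) x) by
        simpa using ⟨har, hbr.le⟩)
    set q := AffineMap.lineMap a b s with hq
    have hmem : q ∈ segment ℝ a b := by
      rw [segment_eq_image_lineMap]; exact ⟨s, hs, rfl⟩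
    have hqb : q ∈ ball p ε := (convex_ball p ε).segment_subset ha hb hmem
    have hd := dist_add_dist_of_mem_segment hmem
    have h1 := hf.dist_le_mul a ha q hqb
    have h2 := hu.dist_le_mul q hqb b hb
    rw [hvf a ha har, hvu b hb hbr]
    have e := hfu q hqb hsr
    calc dist (f a) (u b) ≤ dist (f a) (f q) + dist (u q) (u b) := by
          rw [← e]; exact dist_triangle _ _ _
      _ ≤ (max Cf Cu : NNReal) * dist a q + (max Cf Cu : NNReal) * dist q b := by
          gcongr
          · exact h1.trans (mul_le_mul_of_nonneg_right (by exact_mod_cast le_max_left _ _) dist_nonneg)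
          · exact h2.trans (mul_le_mul_of_nonneg_right (by exact_mod_cast le_max_right _ _) dist_nonneg)
      _ = _ := by rw [← mul_add, hd]
  refine LipschitzOnWith.of_dist_le_mul fun a ha b hb => ?_
  rcases le_or_gt (dist a x) r with har | har <;> rcases le_or_gt (dist b x) r with hbr | hbr
  · rw [hvf a ha har, hvf b hb hbr]
    exact (hf.dist_le_mul a ha b hb).trans
      (mul_le_mul_of_nonneg_right (by exact_mod_cast le_max_left _ _) dist_nonneg)
  · exact key a ha b hb har hbr
  · rw [dist_comm, dist_comm a b]; exact key b hb a ha hbr har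
  · rw [hvu a ha har, hvu b hb hbr]
    exact (hu.dist_le_mul a ha b hb).trans
      (mul_le_mul_of_nonneg_right (by exact_mod_cast le_max_right _ _) dist_nonneg)

theorem exists_ball_lipschitz {f : ℂ → ℝ} {U : Set ℂ} (hU : IsOpen U) (hf : ContDiffOn ℝ 1 f U)
    {p : ℂ} (hp : p ∈ U) : ∃ C : NNReal, ∃ ε > 0, LipschitzOnWith C f (ball p ε) := by
  obtain ⟨C, W, hW, hl⟩ := (hf.contDiffAt (hU.mem_nhds hp)).exists_lipschitzOnWith
  obtain ⟨ε, hε, hsub⟩ := Metric.mem_nhds_iff.1 hW
  exact ⟨C, ε, hε, hl.mono hsub⟩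

/-- The competitor: `Sg` replaces `K` inside the disc, `f i` replaces `u` on the pieces `U i`. -/
theorem glue_bound {K : Set ℂ} {u : ℂ → ℝ} (hRep : RepAt K u) (h : IsGM K u) {x : ℂ}
    {r : ℝ} (hfin : (K ∩ sphere x r).Finite) {ι : Type} (s : Finset ι)
    (U : ι → Set ℂ) (f : ι → ℂ → ℝ) (Sg : Set ℂ) {ell E : ℝ} (hell : 0 ≤ ell) (hE : 0 ≤ E)
    (hc : IsClosed Sg) (hsub : Sg ⊆ closedBall x r) (hlen : μH[1] Sg ≤ ENNReal.ofReal ell)
    (hU : ∀ i ∈ s, IsOpen (U i)) (hf : ∀ i ∈ s, ContDiffOn ℝ 1 (f i) (U i))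
    (hdisj : ∀ i ∈ s, ∀ j ∈ s, i ≠ j → Disjoint (U i) (U j))
    (hcov : ∀ z ∈ closedBall x r, z ∉ Sg → ∃ i ∈ s, z ∈ U i)
    (heq : ∀ i ∈ s, ∀ z ∈ U i, z ∈ sphere x r → z ∉ Sg → z ∉ K ∧ f i z = u z)
    (hconn : ∀ i ∈ s, ∀ y ∈ U i, ∀ z ∈ U i, y ∈ sphere x r → z ∈ sphere x r → y ∉ Sg → z ∉ Sg →
      connectedComponentIn Kᶜ y = connectedComponentIn Kᶜ z)
    (hen : ∑ i ∈ s, ∫⁻ z in ball x r ∩ U i, ENNReal.ofReal (gradSq (f i) z) ≤ ENNReal.ofReal E) :
    dir K u x r + len K x r ≤ E + ell := by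
  classical
  set L := (K \ ball x r) ∪ Sg with hL
  set v : ℂ → ℝ := fun z =>
    if z ∈ closedBall x r then ∑ i ∈ s, (U i).indicator (f i) z else u z with hv
  have hv_in : ∀ i ∈ s, ∀ z ∈ U i, z ∈ closedBall x r → v z = f i z := by
    intro i hi z hz hzB
    simp only [hv, if_pos hzB]
    rw [Finset.sum_eq_single i (fun j hj hji =>
      indicator_of_notMem (fun hzj => Set.disjoint_left.1 (hdisj j hj i hi hji) hzj hz) _)
      (fun hni => absurd hi hni), indicator_of_mem hz]
  have hv_out : ∀ z, z ∉ closedBall x r → v z = u z := fun z hz => by simp only [hv, if_neg hz]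
  have hLc : IsClosed L := (h.isClosed.inter isOpen_ball.isClosed_compl).union hc
  have hloc : LocallyLipschitzOn Lᶜ v := by
    intro p hp
    simp only [hL, mem_compl_iff, mem_union, Set.mem_sdiff, not_or, not_and, not_not] at hp
    obtain ⟨hpK, hpS⟩ := hp
    suffices ∃ C : NNReal, ∃ ε > 0, LipschitzOnWith C v (ball p ε) by
      obtain ⟨C, ε, hε, hl⟩ := this
      exact ⟨C, ball p ε, nhdsWithin_le_nhds (ball_mem_nhds p hε), hl⟩
    rcases lt_trichotomy (dist p x) r with hlt | heqr | hgt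
    · obtain ⟨i, hi, hpi⟩ := hcov p (mem_closedBall.2 hlt.le) hpS
      obtain ⟨C, ε, hε, hl⟩ := exists_ball_lipschitz ((hU i hi).inter isOpen_ball)
        ((hf i hi).mono inter_subset_left) (show p ∈ U i ∩ ball x r from ⟨hpi, hlt⟩)
      obtain ⟨ε', hε', hsub'⟩ := Metric.isOpen_iff.1 ((hU i hi).inter isOpen_ball) p ⟨hpi, hlt⟩
      refine ⟨C, min ε ε', lt_min hε hε', ?_⟩
      intro a ha b hb
      have ha' := hsub' (ball_subset_ball (min_le_right ε ε') ha)
      have hb' := hsub' (ball_subset_ball (min_le_right ε ε') hb)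
      rw [hv_in i hi a ha'.1 (ball_subset_closedBall ha'.2),
        hv_in i hi b hb'.1 (ball_subset_closedBall hb'.2)]
      exact hl (ball_subset_ball (min_le_left _ _) ha) (ball_subset_ball (min_le_left _ _) hb)
    · obtain ⟨i, hi, hpi⟩ := hcov p (mem_closedBall.2 heqr.le) hpS
      have hpK' : p ∉ K := fun hk => (hpK hk).ne heqr
      have hop : IsOpen (U i ∩ Kᶜ ∩ Sgᶜ) :=
        ((hU i hi).inter h.isClosed.isOpen_compl).inter hc.isOpen_compl
      obtain ⟨Cf, εf, hεf, hlf⟩ := exists_ball_lipschitz (hU i hi) (hf i hi) hpi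
      obtain ⟨Cu, εu, hεu, hlu⟩ :=
        exists_ball_lipschitz h.isClosed.isOpen_compl (h.contDiffOn 1) hpK'
      obtain ⟨ε', hε', hsub'⟩ := Metric.isOpen_iff.1 hop p ⟨⟨hpi, hpK'⟩, hpS⟩
      refine ⟨max Cf Cu, min (min εf εu) ε', lt_min (lt_min hεf hεu) hε', ?_⟩
      have hin := fun y (hy : y ∈ ball p (min (min εf εu) ε')) =>
        hsub' (ball_subset_ball (min_le_right _ _) hy)
      refine lipschitzOnWith_glue
        (hlf.mono (ball_subset_ball ((min_le_left _ _).trans (min_le_left _ _))))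
        (hlu.mono (ball_subset_ball ((min_le_left _ _).trans (min_le_right _ _))))
        (fun y hy hyr => hv_in i hi y (hin y hy).1.1 (mem_closedBall.2 hyr))
        (fun y _ hyr => hv_out y (fun hh => hyr.not_ge (mem_closedBall.1 hh)))
        (fun y hy hyr => (heq i hi y (hin y hy).1.1 hyr (hin y hy).2).2)
    · have hpK' : p ∉ K := fun hk => (hgt.trans (hpK hk)).false
      have hop : IsOpen (Kᶜ ∩ (closedBall x r)ᶜ) :=
        h.isClosed.isOpen_compl.inter isClosed_closedBall.isOpen_compl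
      have hpm : p ∈ Kᶜ ∩ (closedBall x r)ᶜ :=
        ⟨hpK', fun hh => hgt.not_ge (mem_closedBall.1 hh)⟩
      obtain ⟨Cu, εu, hεu, hlu⟩ :=
        exists_ball_lipschitz hop ((h.contDiffOn 1).mono inter_subset_left) hpm
      obtain ⟨ε', hε', hsub'⟩ := Metric.isOpen_iff.1 hop p hpm
      refine ⟨Cu, min εu ε', lt_min hεu hε', ?_⟩
      intro a ha b hb
      rw [hv_out a (hsub' (ball_subset_ball (min_le_right _ _) ha)).2,
        hv_out b (hsub' (ball_subset_ball (min_le_right _ _) hb)).2]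
      exact hlu (ball_subset_ball (min_le_left _ _) ha) (ball_subset_ball (min_le_left _ _) hb)
  have hsame : L \ closedBall x r = K \ closedBall x r := by
    ext z
    simp only [hL, Set.mem_sdiff, mem_union]
    constructor
    · rintro ⟨h1 | h1, h2⟩
      · exact ⟨h1.1, h2⟩
      · exact absurd (hsub h1) h2
    · rintro ⟨h1, h2⟩
      exact ⟨Or.inl ⟨h1, fun hb => h2 (ball_subset_closedBall hb)⟩, h2⟩
  have hSgL : ∀ z, z ∉ L → z ∉ Sg := fun z hz hh => hz (Or.inr hh)
  have hkeep : ∀ R, ‖x‖ + r + 1 ≤ R → KeepsSeparation K L 0 R := fun R hR =>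
    keepsSeparation_glue h.isClosed hLc hsame hU hdisj
      (fun z hz hzL => hcov z hz (hSgL z hzL))
      (fun z hz hzL => by
        obtain ⟨i, hi, hzi⟩ := hcov z (sphere_subset_closedBall hz) (hSgL z hzL)
        exact (heq i hi z hzi hz (hSgL z hzL)).1)
      (fun i hi y hy z hz hys hzs hyL hzL =>
        hconn i hi y hy z hz hys hzs (hSgL y hyL) (hSgL z hzL)) (by linarith)
  have hmain := hRep (closedBall x r) L v (isCompact_closedBall x r) hLc hloc hsame
    (fun z hz => hv_out z (fun hh => hz (Or.inl hh))) ⟨_, hkeep⟩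
  have hlenL : μH[1] (L ∩ closedBall x r) ≤ ENNReal.ofReal ell := by
    have := Measure.nullSingletonClass_hausdorff ℂ (show (0 : ℝ) < 1 by norm_num)
    refine (measure_mono (show L ∩ closedBall x r ⊆ (K ∩ sphere x r) ∪ Sg from ?_)).trans
      ((measure_union_le _ _).trans ?_)
    · rintro z ⟨h1 | h1, h2⟩
      · exact Or.inl ⟨h1.1, le_antisymm (mem_closedBall.1 h2) (le_of_not_gt h1.2)⟩
      · exact Or.inr h1
    · rw [hfin.measure_zero, zero_add]; exact hlen
  have hdirL : dirichlet L v (closedBall x r) ≤ ENNReal.ofReal E := by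
    unfold dirichlet
    calc ∫⁻ z in closedBall x r \ L, ENNReal.ofReal (gradSq v z)
        ≤ ∫⁻ z in (⋃ i ∈ s, ball x r ∩ U i) ∪ sphere x r, ENNReal.ofReal (gradSq v z) := by
          refine lintegral_mono_set fun z hz => ?_
          rcases (mem_closedBall.1 hz.1).lt_or_eq with hlt | he
          · obtain ⟨i, hi, hzi⟩ := hcov z hz.1 (fun hh => hz.2 (Or.inr hh))
            exact Or.inl (mem_iUnion₂.2 ⟨i, hi, hlt, hzi⟩)
          · exact Or.inr he
      _ ≤ (∫⁻ z in ⋃ i ∈ s, ball x r ∩ U i, ENNReal.ofReal (gradSq v z)) +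
            ∫⁻ z in sphere x r, ENNReal.ofReal (gradSq v z) := lintegral_union_le _ _ _
      _ = ∑ i ∈ s, ∫⁻ z in ball x r ∩ U i, ENNReal.ofReal (gradSq v z) := by
          rw [setLIntegral_measure_zero _ _ (Measure.addHaar_sphere volume x r), add_zero,
            lintegral_biUnion_finset
              (fun i hi j hj hij => (hdisj i hi j hj hij).mono inter_subset_right inter_subset_right)
              (fun i hi => (isOpen_ball.inter (hU i hi)).measurableSet)]
      _ = ∑ i ∈ s, ∫⁻ z in ball x r ∩ U i, ENNReal.ofReal (gradSq (f i) z) := by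
          refine Finset.sum_congr rfl fun i hi => ?_
          refine setLIntegral_congr_fun (isOpen_ball.inter (hU i hi)).measurableSet fun z hz => ?_
          have : v =ᶠ[𝓝 z] f i := by
            filter_upwards [(isOpen_ball.inter (hU i hi)).mem_nhds hz] with y hy using
              hv_in i hi y hy.2 (ball_subset_closedBall hy.1)
          simp only [gradSq, this.fderiv_eq]
      _ ≤ ENNReal.ofReal E := hen
  have hEn : energy L v (closedBall x r) ≤ ENNReal.ofReal (E + ell) := by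
    rw [ENNReal.ofReal_add hE hell]; exact add_le_add hdirL hlenL
  have hball : energy K u (ball x r) ≤ energy K u (closedBall x r) :=
    add_le_add (lintegral_mono_set (sdiff_subset_sdiff_left ball_subset_closedBall))
      (measure_mono (inter_subset_inter_right K ball_subset_closedBall))
  have htot := hball.trans (hmain.trans hEn)
  have hf1 := (h.dirichlet_lt_top x r).ne
  have hf2 := (h.length_lt_top x r).ne
  rw [dir, len, ← ENNReal.toReal_add hf1 hf2]
  exact ENNReal.toReal_le_of_le_ofReal (add_nonneg hE hell) htot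

end Vale.Agent.P128.Cone
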