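import Vale.Agent.P128.Cone.Sector

/-!
# P128 piece K: circle geometry of the sectors
-/

open MeasureTheory Set Metric Filter
open scoped ENNReal Topology Real

noncomputable section

namespace Vale.Agent.P128.Cone

variable {x : ℂ} {r c h : ℝ}

theorem circleMap_eq_add (x : ℂ) (r θ : ℝ) :
    circleMap x r θ = x + (r : ℂ) * Complex.exp (θ * Complex.I) := rfl

theorem mob_zero (w : ℂ) : mob 0 w = w := by simp [mob]

theorem eq_add_nrm (hr : r ≠ 0) (z : ℂ) :
    z = x + (r * Complex.exp (c * Complex.I)) * nrm x r c z := by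
  rw [nrm, mul_div_cancel₀ _ (nrm_den_ne hr)]; ring

theorem arg_exp_I {t : ℝ} (ht : t ∈ Ioc (-π) π) : (Complex.exp (t * Complex.I)).arg = t := by
  rw [Complex.exp_mul_I]; exact Complex.arg_cos_add_sin_mul_I ht

/-- A point with normalised coordinate `w` lies on the ray of angle `c + arg w`. -/
theorem eq_add_exp_of_nrm (hr : r ≠ 0) (z : ℂ) :
    z = x + ((r * ‖nrm x r c z‖ : ℝ) : ℂ) *
      Complex.exp (((c + (nrm x r c z).arg : ℝ) : ℂ) * Complex.I) := by
  conv_lhs => rw [eq_add_nrm (x := x) (c := c) hr z,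
    ← Complex.norm_mul_exp_arg_mul_I (nrm x r c z)]
  push_cast
  rw [add_mul (c : ℂ), Complex.exp_add]
  ring

theorem eq_circleMap_of_sphere (hr : 0 < r) {z : ℂ} (hz : z ∈ sphere x r) :
    z = circleMap x r (c + (nrm x r c z).arg) := by
  have h1 : ‖nrm x r c z‖ = 1 := by
    rw [norm_nrm hr, mem_sphere_iff_norm.1 hz, div_self hr.ne']
  have := eq_add_exp_of_nrm (x := x) (c := c) hr.ne' z
  rw [h1, mul_one] at this
  rw [circleMap_eq_add]; exact this

theorem sectorFn_eq_of_sphere {δ : ℝ} (hr : 0 < r) (hδ : |δ| < 1) (F : ℝ → ℝ) (m : ℝ) {z : ℂ}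
    (hz : z ∈ sphere x r) :
    sectorFn x r c δ h F m z = F (mob δ (nrm x r c z)).arg := by
  have h1 : ‖nrm x r c z‖ = 1 := by
    rw [norm_nrm hr, mem_sphere_iff_norm.1 hz, div_self hr.ne']
  simp [sectorFn, model, strip, Complex.log_re, Complex.log_im, norm_mob_eq_one hδ h1]

theorem exp_eq_of_angle {a b : ℝ} (e : Complex.exp (a * Complex.I) = Complex.exp (b * Complex.I))
    (hab : |a - b| < 2 * π) : a = b := by
  obtain ⟨n, hn⟩ := Complex.exp_eq_exp_iff_exists_int.1 e
  have h' : a = b + n * (2 * π) := by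
    have := congrArg Complex.im hn
    simpa using this
  have hn0 : n = 0 := by
    by_contra hne
    have h1 : (1 : ℝ) ≤ |(n : ℝ)| := by exact_mod_cast Int.one_le_abs hne
    rw [h', add_sub_cancel_left, abs_mul, abs_of_pos Real.two_pi_pos] at hab
    nlinarith [Real.two_pi_pos]
  simpa [hn0] using h'

/-- Division of the circle into increasing angles. -/
structure Angles (t : ℕ → ℝ) (m : ℕ) : Prop where
  pos : 0 < m
  close : t m = t 0 + 2 * π
  step : ∀ i < m, t i < t (i + 1)

variable {t : ℕ → ℝ} {m : ℕ}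

theorem Angles.mono (A : Angles t m) {i j : ℕ} (hij : i ≤ j) (hj : j ≤ m) : t i ≤ t j := by
  induction j with
  | zero => simp [Nat.le_zero.1 hij]
  | succ j ih =>
    rcases Nat.lt_or_ge i (j + 1) with hl | hl
    · exact (ih (Nat.lt_succ_iff.1 hl) (by omega)).trans (A.step j (by omega)).le
    · rw [le_antisymm hij hl]

theorem Angles.width (A : Angles t m) {i : ℕ} (hi : i < m) : t (i + 1) - t i ≤ 2 * π := by
  have h1 := A.mono (Nat.zero_le i) hi.le
  have h2 := A.mono (Nat.succ_le_of_lt hi) le_rfl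
  rw [A.close] at h2
  simp only [Nat.succ_eq_add_one] at h2
  linarith

/-- The middle of the `i`th arc. -/
def mid (t : ℕ → ℝ) (i : ℕ) : ℝ := (t i + t (i + 1)) / 2

/-- Half of the angle of the `i`th arc. -/
def half (t : ℕ → ℝ) (i : ℕ) : ℝ := (t (i + 1) - t i) / 2

/-- The closed segments to the points at the angles. -/
def star (x : ℂ) (r : ℝ) (t : ℕ → ℝ) (m : ℕ) : Set ℂ :=
  ⋃ i ∈ Finset.range m, segment ℝ x (circleMap x r (t i))

theorem isClosed_star : IsClosed (star x r t m) := by
  refine Set.Finite.isClosed_biUnion (Finset.finite_toSet _) fun i _ => ?_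
  rw [segment_eq_image_lineMap]
  exact (isCompact_Icc.image AffineMap.lineMap_continuous).isClosed

theorem star_subset (hr : 0 ≤ r) : star x r t m ⊆ closedBall x r :=
  iUnion₂_subset fun _ _ => (convex_closedBall x r).segment_subset (mem_closedBall_self hr)
    (sphere_subset_closedBall (circleMap_mem_sphere x hr _))

theorem hausdorff_star (hr : 0 ≤ r) : μH[1] (star x r t m) ≤ ENNReal.ofReal (r * m) := by
  refine (measure_biUnion_finset_le _ _).trans ?_
  simp only [hausdorffMeasure_segment, edist_dist, dist_eq_norm, circleMap_eq_add,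
    sub_add_cancel_left, norm_neg, norm_mul, Complex.norm_real, Complex.norm_exp_ofReal_mul_I,
    mul_one, Real.norm_eq_abs, abs_of_nonneg hr, Finset.sum_const, Finset.card_range]
  rw [← ENNReal.ofReal_nsmul, nsmul_eq_mul, mul_comm]

theorem mem_sector_iff {z : ℂ} : z ∈ sector x r c 0 h ↔
    nrm x r c z ∈ Complex.slitPlane ∧ |(nrm x r c z).arg| < h := by
  simp [sector, mob_zero]

theorem exists_sector (hr : 0 < r) (A : Angles t m) {z : ℂ} (hz : z ∈ closedBall x r)
    (hzS : z ∉ star x r t m) : ∃ i ∈ Finset.range m, z ∈ sector x r (mid t i) 0 (half t i) := by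
  have hsub : ∀ i < m, segment ℝ x (circleMap x r (t i)) ⊆ star x r t m := fun i hi =>
    subset_biUnion_of_mem (u := fun i => segment ℝ x (circleMap x r (t i))) (Finset.mem_range.2 hi)
  have hzx : z ≠ x := fun e => hzS (hsub 0 A.pos (e ▸ left_mem_segment ℝ _ _))
  set ρ := ‖z - x‖ with hρ
  have hρ0 : 0 < ρ := norm_pos_iff.2 (sub_ne_zero.2 hzx)
  have hρr : ρ ≤ r := mem_closedBall_iff_norm.1 hz
  set θ := toIcoMod Real.two_pi_pos (t 0) (z - x).arg with hθ
  have hθm : θ ∈ Ico (t 0) (t 0 + 2 * π) := toIcoMod_mem_Ico _ _ _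
  have hzθ : z = x + (ρ : ℂ) * Complex.exp (θ * Complex.I) := by
    have he : Complex.exp (θ * Complex.I) = Complex.exp ((z - x).arg * Complex.I) := by
      refine Complex.exp_eq_exp_iff_exists_int.2
        ⟨-toIcoDiv Real.two_pi_pos (t 0) (z - x).arg, ?_⟩
      have e1 : θ = (z - x).arg - (toIcoDiv Real.two_pi_pos (t 0) (z - x).arg : ℝ) * (2 * π) := by
        rw [hθ, ← self_sub_toIcoDiv_zsmul Real.two_pi_pos (t 0) (z - x).arg, zsmul_eq_mul]
      rw [e1]; push_cast; ring
    rw [he, hρ, Complex.norm_mul_exp_arg_mul_I]; ring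
  have hex : ∀ n ≤ m, θ < t n → ∃ i < n, t i ≤ θ ∧ θ < t (i + 1) := by
    intro n
    induction n with
    | zero => intro _ h0; exact absurd h0 (not_lt.2 hθm.1)
    | succ n ih =>
      intro hn hlt
      by_cases hc : θ < t n
      · obtain ⟨i, hi, hi'⟩ := ih (by omega) hc
        exact ⟨i, by omega, hi'⟩
      · exact ⟨n, n.lt_succ_self, not_lt.1 hc, hlt⟩
  obtain ⟨i, hi, hlo, hhi⟩ := hex m le_rfl (by rw [A.close]; exact hθm.2)
  have hlo' : t i < θ := by
    refine hlo.lt_of_ne fun e => hzS (hsub i hi ?_)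
    rw [segment_eq_image_lineMap]
    refine ⟨ρ / r, ⟨by positivity, (div_le_one hr).2 hρr⟩, ?_⟩
    rw [AffineMap.lineMap_apply_module', circleMap_eq_add, e]
    conv_rhs => rw [hzθ]
    rw [add_sub_cancel_left, Complex.real_smul]
    have : (r : ℂ) ≠ 0 := Complex.ofReal_ne_zero.2 hr.ne'
    push_cast
    field_simp
    ring
  refine ⟨i, Finset.mem_range.2 hi, mem_sector_iff.2 ?_⟩
  have hwid := A.width hi
  have hd : |θ - mid t i| < half t i := by
    rw [abs_lt, mid, half]; constructor <;> linarith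
  have hhalf : half t i ≤ π := by rw [half]; linarith
  have hnrm : nrm x r (mid t i) z =
      ((ρ / r : ℝ) : ℂ) * Complex.exp (((θ - mid t i : ℝ) : ℂ) * Complex.I) := by
    rw [nrm, div_eq_iff (nrm_den_ne hr.ne')]
    conv_lhs => rw [hzθ]
    have : (r : ℂ) ≠ 0 := Complex.ofReal_ne_zero.2 hr.ne'
    have e3 : Complex.exp (((θ - mid t i : ℝ) : ℂ) * Complex.I) *
        Complex.exp (mid t i * Complex.I) = Complex.exp (θ * Complex.I) := by
      rw [← Complex.exp_add]; push_cast; ring_nf
    rw [add_sub_cancel_left, ← e3]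
    push_cast
    field_simp
  have harg : (nrm x r (mid t i) z).arg = θ - mid t i := by
    rw [hnrm, Complex.arg_real_mul _ (by positivity), arg_exp_I]
    exact ⟨by linarith [(abs_lt.1 hd).1], by linarith [(abs_lt.1 hd).2]⟩
  refine ⟨?_, harg ▸ hd⟩
  rw [Complex.mem_slitPlane_iff_arg, harg]
  exact ⟨by linarith [(abs_lt.1 hd).2], by rw [hnrm]; simp [hr.ne', hρ0.ne']⟩

theorem sector_disjoint (hr : 0 < r) (A : Angles t m) {i j : ℕ} (hi : i < m) (hj : j < m)
    (hij : i ≠ j) :
    Disjoint (sector x r (mid t i) 0 (half t i)) (sector x r (mid t j) 0 (half t j)) := by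
  refine Set.disjoint_left.2 fun z hzi hzj => ?_
  rw [mem_sector_iff] at hzi hzj
  set a := mid t i + (nrm x r (mid t i) z).arg with ha
  set b := mid t j + (nrm x r (mid t j) z).arg with hb
  have ha' : a ∈ Ioo (t i) (t (i + 1)) := by
    have := abs_lt.1 hzi.2
    simp only [ha, mid, half] at this ⊢
    constructor <;> linarith
  have hb' : b ∈ Ioo (t j) (t (j + 1)) := by
    have := abs_lt.1 hzj.2
    simp only [hb, mid, half] at this ⊢
    constructor <;> linarith
  have hne : a ≠ b := by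
    rcases lt_or_gt_of_ne hij with hl | hl
    · exact (ha'.2.trans_le (A.mono (Nat.succ_le_of_lt hl) hj.le) |>.trans hb'.1).ne
    · exact (hb'.2.trans_le (A.mono (Nat.succ_le_of_lt hl) hi.le) |>.trans ha'.1).ne'
  refine hne (exp_eq_of_angle ?_ ?_)
  · have e1 := eq_add_exp_of_nrm (x := x) (c := mid t i) hr.ne' z
    have e2 := eq_add_exp_of_nrm (x := x) (c := mid t j) hr.ne' z
    rw [norm_nrm hr] at e1 e2
    have e3 := add_left_cancel (e1.symm.trans e2)
    refine mul_left_cancel₀ ?_ e3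
    have : z ≠ x := fun e => Complex.slitPlane_ne_zero hzi.1 (by simp [nrm, e])
    simp [hr.ne', sub_eq_zero, this]
  · have h1 := A.mono (Nat.zero_le i) hi.le
    have h2 := A.mono (Nat.succ_le_of_lt hi) le_rfl
    have h3 := A.mono (Nat.zero_le j) hj.le
    have h4 := A.mono (Nat.succ_le_of_lt hj) le_rfl
    simp only [A.close, Nat.succ_eq_add_one] at h2 h4
    rw [abs_lt]
    constructor <;> linarith [ha'.1, ha'.2, hb'.1, hb'.2]

end Vale.Agent.P128.Cone
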