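import Vale.Agent.P128.Spec
import Vale.Agent.P128.Basic

/-!
# P128 piece K: Dirichlet energy of a homogeneous function on a (Möbius shifted) sector

`H z = log (M (w z))`, `w z` the normalised coordinate and `M` a disc automorphism, maps the sector
conformally to a half strip, on which the competitor is `m + exp (α s) (F t - m)`.
-/

open MeasureTheory Set Metric Filter
open scoped ENNReal Topology Real

noncomputable section

namespace Vale.Agent.P128.Cone

/-- The disc automorphism fixing `-1` and sending `δ` to `0`. -/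
def mob (δ : ℝ) (w : ℂ) : ℂ := (w - δ) / (1 - δ * w)

/-- Normalised coordinate on the disc `ball x r`, with `circleMap x r c` sent to `1`. -/
def nrm (x : ℂ) (r c : ℝ) (z : ℂ) : ℂ := (z - x) / (r * Complex.exp (c * Complex.I))

/-- The conformal map to the strip. -/
def strip (x : ℂ) (r c δ : ℝ) (z : ℂ) : ℂ := Complex.log (mob δ (nrm x r c z))

/-- The sector of half angle `h`. -/
def sector (x : ℂ) (r c δ h : ℝ) : Set ℂ :=
  {z | 1 - δ * nrm x r c z ≠ 0 ∧ mob δ (nrm x r c z) ∈ Complex.slitPlane ∧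
    |(mob δ (nrm x r c z)).arg| < h}

/-- The model on the strip. -/
def model (h : ℝ) (F : ℝ → ℝ) (m : ℝ) (Z : ℂ) : ℝ :=
  m + Real.exp (π / (2 * h) * Z.re) * (F Z.im - m)

/-- The competitor on a sector. -/
def sectorFn (x : ℂ) (r c δ h : ℝ) (F : ℝ → ℝ) (m : ℝ) (z : ℂ) : ℝ :=
  model h F m (strip x r c δ z)

variable {x : ℂ} {r c δ h : ℝ}

theorem nrm_den_ne (hr : r ≠ 0) : (r : ℂ) * Complex.exp (c * Complex.I) ≠ 0 :=
  mul_ne_zero (Complex.ofReal_ne_zero.2 hr) (Complex.exp_ne_zero _)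

theorem norm_nrm (hr : 0 < r) (z : ℂ) : ‖nrm x r c z‖ = ‖z - x‖ / r := by
  simp [nrm, Complex.norm_exp, abs_of_pos hr]

theorem nrm_injective (hr : r ≠ 0) : Function.Injective (nrm x r c) := fun a b e => by
  simpa [nrm, div_left_inj' (nrm_den_ne (c := c) hr)] using e

theorem norm_one_sub_mul_sq (δ : ℝ) (w : ℂ) :
    ‖1 - (δ : ℂ) * w‖ ^ 2 = 1 - 2 * δ * w.re + δ ^ 2 * ‖w‖ ^ 2 := by
  rw [Complex.sq_norm, Complex.sq_norm]
  simp [Complex.normSq_apply]
  ring

theorem one_sub_sq_norm_mob {w : ℂ} (hw : 1 - (δ : ℂ) * w ≠ 0) :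
    1 - ‖mob δ w‖ ^ 2 = (1 - δ ^ 2) * (1 - ‖w‖ ^ 2) / ‖1 - (δ : ℂ) * w‖ ^ 2 := by
  have hn : ‖1 - (δ : ℂ) * w‖ ^ 2 ≠ 0 := pow_ne_zero _ (norm_ne_zero_iff.2 hw)
  have h2 : ‖w - (δ : ℂ)‖ ^ 2 = ‖w‖ ^ 2 - 2 * δ * w.re + δ ^ 2 := by
    rw [Complex.sq_norm, Complex.sq_norm]
    simp [Complex.normSq_apply]
    ring
  rw [mob, norm_div, div_pow, eq_div_iff hn, sub_mul, div_mul_cancel₀ _ hn, h2,
    norm_one_sub_mul_sq]
  ring

theorem den_ne_of_le_one (hδ : |δ| < 1) {w : ℂ} (hw : ‖w‖ ≤ 1) : 1 - (δ : ℂ) * w ≠ 0 := by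
  intro e
  have h1 : ‖(δ : ℂ) * w‖ = 1 := by rw [← sub_eq_zero.1 e, norm_one]
  rw [norm_mul, Complex.norm_real, Real.norm_eq_abs] at h1
  nlinarith [abs_nonneg δ, norm_nonneg w]

theorem norm_mob_lt_one (hδ : |δ| < 1) {w : ℂ} (hw : ‖w‖ < 1) : ‖mob δ w‖ < 1 := by
  have hd := den_ne_of_le_one hδ hw.le
  have hδ2 : 0 < 1 - δ ^ 2 := by nlinarith [(sq_lt_one_iff_abs_lt_one δ).2 hδ]
  have : 0 < 1 - ‖mob δ w‖ ^ 2 := by
    rw [one_sub_sq_norm_mob hd]
    have : 0 < 1 - ‖w‖ ^ 2 := by nlinarith [norm_nonneg w]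
    have := norm_pos_iff.2 hd
    positivity
  nlinarith [norm_nonneg (mob δ w)]

theorem norm_mob_eq_one (hδ : |δ| < 1) {w : ℂ} (hw : ‖w‖ = 1) : ‖mob δ w‖ = 1 := by
  have hd := den_ne_of_le_one hδ hw.le
  have : 1 - ‖mob δ w‖ ^ 2 = 0 := by rw [one_sub_sq_norm_mob hd, hw]; simp
  nlinarith [norm_nonneg (mob δ w)]

theorem im_mob {w : ℂ} :
    (mob δ w).im = w.im * (1 - δ ^ 2) / ‖1 - (δ : ℂ) * w‖ ^ 2 := by
  rw [mob, Complex.div_im, Complex.sq_norm]
  simp
  ring

theorem mob_injOn (hδ : |δ| < 1) : InjOn (mob δ) {w | 1 - (δ : ℂ) * w ≠ 0} := by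
  intro a ha b hb e
  rw [mob, mob, div_eq_div_iff ha hb] at e
  have h2 : (1 : ℂ) - (δ : ℂ) ^ 2 ≠ 0 := by
    have : (1 : ℝ) - δ ^ 2 ≠ 0 := by nlinarith [(sq_lt_one_iff_abs_lt_one δ).2 hδ]
    exact_mod_cast this
  refine mul_left_cancel₀ h2 ?_
  linear_combination e

theorem hasDerivAt_mob {w : ℂ} (hw : 1 - (δ : ℂ) * w ≠ 0) :
    HasDerivAt (mob δ) (((1 : ℝ) - δ ^ 2 : ℝ) / (1 - (δ : ℂ) * w) ^ 2) w := by
  have h1 : HasDerivAt (fun w : ℂ => w - (δ : ℂ)) 1 w := (hasDerivAt_id w).sub_const _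
  have h2 : HasDerivAt (fun w : ℂ => 1 - (δ : ℂ) * w) (-(δ : ℂ)) w := by
    simpa using ((hasDerivAt_id w).const_mul (δ : ℂ)).const_sub 1
  refine (h1.div h2 hw).congr_deriv ?_
  push_cast
  ring

theorem continuous_nrm : Continuous (nrm x r c) := by unfold nrm; fun_prop

theorem isOpen_sector : IsOpen (sector x r c δ h) := by
  refine isOpen_iff_mem_nhds.2 fun z hz => ?_
  obtain ⟨h1, h2, h3⟩ := hz
  have cn := (continuous_nrm (x := x) (r := r) (c := c)).continuousAt (x := z)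
  have cm : ContinuousAt (fun z => mob δ (nrm x r c z)) z :=
    (hasDerivAt_mob h1).continuousAt.comp cn
  have e1 : ∀ᶠ y in 𝓝 z, 1 - (δ : ℂ) * nrm x r c y ≠ 0 :=
    (continuousAt_const.sub (continuousAt_const.mul cn)).eventually_ne h1
  have e2 : ∀ᶠ y in 𝓝 z, mob δ (nrm x r c y) ∈ Complex.slitPlane :=
    cm.eventually (Complex.isOpen_slitPlane.mem_nhds h2)
  have e3 : ∀ᶠ y in 𝓝 z, |(mob δ (nrm x r c y)).arg| < h :=
    ((ContinuousAt.comp (f := fun z => mob δ (nrm x r c z)) (Complex.continuousAt_arg h2) cm).abs).eventually (eventually_lt_nhds h3)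
  filter_upwards [e1, e2, e3] with y a b c' using ⟨a, b, c'⟩

theorem exists_hasDerivAt_strip (_hr : r ≠ 0) {z : ℂ} (hz : z ∈ sector x r c δ h) :
    ∃ d, HasDerivAt (strip x r c δ) d z := by
  have hn : DifferentiableAt ℂ (nrm x r c) z := by unfold nrm; fun_prop
  have := ((hasDerivAt_mob hz.1).differentiableAt.comp z hn).hasDerivAt.clog hz.2.1
  exact ⟨_, this⟩

theorem strip_injOn (hr : r ≠ 0) (hδ : |δ| < 1) :
    InjOn (strip x r c δ) (sector x r c δ h) := by
  intro a ha b hb e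
  have := congrArg Complex.exp e
  rw [strip, strip, Complex.exp_log (Complex.slitPlane_ne_zero ha.2.1),
    Complex.exp_log (Complex.slitPlane_ne_zero hb.2.1)] at this
  exact nrm_injective hr (mob_injOn hδ ha.1 hb.1 this)

theorem strip_mapsTo (hr : 0 < r) (hδ : |δ| < 1) :
    MapsTo (strip x r c δ) (ball x r ∩ sector x r c δ h)
      {Z | Z.re < 0 ∧ |Z.im| < h} := by
  rintro z ⟨hz, hz1, hz2, hz3⟩
  refine ⟨?_, by rwa [strip, Complex.log_im]⟩
  rw [strip, Complex.log_re]
  refine Real.log_neg (norm_pos_iff.2 (Complex.slitPlane_ne_zero hz2)) ?_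
  refine norm_mob_lt_one hδ ?_
  rwa [norm_nrm hr, div_lt_one hr, ← dist_eq_norm]

theorem contDiffOn_sectorFn (hr : r ≠ 0) {F : ℝ → ℝ} (hF : ContDiffOn ℝ 1 F (Ioo (-h) h)) (m : ℝ) :
    ContDiffOn ℝ 1 (sectorFn x r c δ h F m) (sector x r c δ h) := by
  intro z hz
  refine ContDiffAt.contDiffWithinAt ?_
  have han : AnalyticAt ℂ (strip x r c δ) z :=
    (DifferentiableOn.analyticAt (s := sector x r c δ h)
      (fun y hy => (exists_hasDerivAt_strip hr hy).choose_spec.differentiableAt.differentiableWithinAt)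
      (isOpen_sector.mem_nhds hz))
  have hs : ContDiffAt ℝ 1 (strip x r c δ) z := han.contDiffAt.restrict_scalars ℝ
  have him : (strip x r c δ z).im ∈ Ioo (-h) h := by
    rw [strip, Complex.log_im]; exact abs_lt.1 hz.2.2
  have hre : ContDiffAt ℝ 1 (fun y => (strip x r c δ y).re) z :=
    Complex.reCLM.contDiff.contDiffAt.comp z hs
  have him' : ContDiffAt ℝ 1 (fun y => (strip x r c δ y).im) z :=
    Complex.imCLM.contDiff.contDiffAt.comp z hs
  have hFi : ContDiffAt ℝ 1 (fun y => F (strip x r c δ y).im) z :=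
    (hF.contDiffAt (isOpen_Ioo.mem_nhds him)).comp z him'
  unfold sectorFn model
  exact contDiffAt_const.add
    (((contDiffAt_const.mul hre).exp).mul (hFi.sub contDiffAt_const))

theorem gradSq_comp_conformal {Ψ : ℂ → ℝ} {H : ℂ → ℂ} {d z : ℂ} (hH : HasDerivAt H d z)
    (hΨ : DifferentiableAt ℝ Ψ (H z)) :
    gradSq (fun y => Ψ (H y)) z = Complex.normSq d * gradSq Ψ (H z) := by
  have hc := (hΨ.hasFDerivAt.comp z (hH.hasFDerivAt.restrictScalars ℝ)).fderiv
  have hl : ∀ v : ℂ, fderiv ℝ Ψ (H z) v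
      = v.re * fderiv ℝ Ψ (H z) 1 + v.im * fderiv ℝ Ψ (H z) Complex.I := by
    intro v
    conv_lhs => rw [show v = v.re • (1 : ℂ) + v.im • Complex.I by simp]
    rw [map_add, map_smul, map_smul]
    rfl
  simp only [gradSq, Function.comp_def] at hc ⊢
  rw [hc]
  simp only [ContinuousLinearMap.comp_apply, ContinuousLinearMap.coe_restrictScalars',
    ContinuousLinearMap.toSpanSingleton_apply, smul_eq_mul, one_mul]
  rw [hl d, hl (Complex.I * d)]
  simp [Complex.normSq_apply]
  ring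

theorem abs_det_restrictScalars (d : ℂ) :
    |((ContinuousLinearMap.toSpanSingleton ℂ d).restrictScalars ℝ).det| = Complex.normSq d := by
  have : ((ContinuousLinearMap.toSpanSingleton ℂ d).restrictScalars ℝ).det = Complex.normSq d := by
    rw [ContinuousLinearMap.det, ContinuousLinearMap.coe_restrictScalars,
      LinearMap.det_restrictScalars]
    simp [Algebra.norm_complex_eq]
  rw [this, abs_of_nonneg (Complex.normSq_nonneg d)]

theorem gradSq_model {F : ℝ → ℝ} (hF : ContDiffOn ℝ 1 F (Ioo (-h) h)) (m : ℝ) {Z : ℂ}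
    (hZ : Z.im ∈ Ioo (-h) h) :
    gradSq (model h F m) Z = Real.exp (2 * (π / (2 * h)) * Z.re) *
      ((π / (2 * h)) ^ 2 * (F Z.im - m) ^ 2 + deriv F Z.im ^ 2) := by
  have hFd : HasDerivAt F (deriv F Z.im) Z.im :=
    ((hF.contDiffAt (isOpen_Ioo.mem_nhds hZ)).differentiableAt one_ne_zero).hasDerivAt
  have h1 := (Complex.reCLM.hasFDerivAt (x := Z)).const_mul (π / (2 * h))
  have h2 := (hFd.comp_hasFDerivAt Z (Complex.imCLM.hasFDerivAt (x := Z))).sub_const m
  have h3 : HasFDerivAt (model h F m) _ Z := (h1.exp.mul h2).const_add m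
  rw [gradSq, h3.fderiv]
  simp only [add_apply, smul_apply, Complex.reCLM_apply, Complex.imCLM_apply, Function.comp_apply,
    Complex.one_re, Complex.one_im, Complex.I_re, Complex.I_im, smul_eq_mul]
  rw [show 2 * (π / (2 * h)) * Z.re = π / (2 * h) * Z.re + π / (2 * h) * Z.re by ring,
    Real.exp_add]
  ring

/-- Energy on the half strip. -/
theorem lintegral_strip (h0 : 0 < h) (f : ℝ → ℝ) :
    ∫⁻ Z in {Z : ℂ | Z.re < 0 ∧ |Z.im| < h},
        ENNReal.ofReal (Real.exp (2 * (π / (2 * h)) * Z.re) * f Z.im)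
      ≤ ENNReal.ofReal (h / π) * ∫⁻ t in Ioo (-h) h, ENNReal.ofReal (f t) := by
  set e : ℝ → ℝ≥0∞ := fun s => ENNReal.ofReal (Real.exp (2 * (π / (2 * h)) * s)) with he
  have hset : {Z : ℂ | Z.re < 0 ∧ |Z.im| < h}
      = Complex.measurableEquivRealProd ⁻¹' (Iio 0 ×ˢ Ioo (-h) h) := by
    ext Z; simp [abs_lt]
  rw [hset]
  have hg : (fun Z : ℂ => ENNReal.ofReal (Real.exp (2 * (π / (2 * h)) * Z.re) * f Z.im))
      = fun Z => (fun p : ℝ × ℝ => e p.1 * ENNReal.ofReal (f p.2))
          (Complex.measurableEquivRealProd Z) := by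
    funext Z
    simp [he, ENNReal.ofReal_mul (Real.exp_nonneg _)]
  rw [hg, Complex.volume_preserving_equiv_real_prod.setLIntegral_comp_preimage_emb
    Complex.measurableEquivRealProd.measurableEmbedding
    (fun p : ℝ × ℝ => e p.1 * ENNReal.ofReal (f p.2)), Measure.volume_eq_prod,
    ← Measure.prod_restrict]
  refine (lintegral_prod_le _).trans ?_
  have hem : Measurable e := by rw [he]; fun_prop
  refine le_trans (le_of_eq (lintegral_congr fun s =>
    lintegral_const_mul' (e s) _ ENNReal.ofReal_ne_top)) ?_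
  dsimp only
  rw [lintegral_mul_const _ hem]
  refine mul_le_mul_left ?_ _
  have hk : 0 < 2 * (π / (2 * h)) := by have := Real.pi_pos; positivity
  rw [← Measure.restrict_congr_set (Iio_ae_eq_Iic (μ := volume)).symm,
    ← ofReal_integral_eq_lintegral_ofReal (integrableOn_exp_mul_Iic hk 0)
      (Eventually.of_forall fun s => Real.exp_nonneg _), integral_exp_mul_Iic hk 0]
  refine le_of_eq ?_
  congr 1
  have := Real.pi_pos
  simp only [mul_zero, Real.exp_zero]
  field_simp

/-- Existence of the constant `m`: the Wirtinger inequality for the data. -/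
theorem exists_mean (hW : WirtingerSpec) (h0 : 0 < h) {F : ℝ → ℝ}
    (hF : ContDiffOn ℝ 1 F (Ioo (-h) h))
    (hI : IntegrableOn (fun t => deriv F t ^ 2) (Ioo (-h) h)) :
    ∃ m, IntegrableOn (fun t => (π / (2 * h)) ^ 2 * (F t - m) ^ 2 + deriv F t ^ 2) (Ioo (-h) h) ∧
      ∫ t in Ioo (-h) h, (π / (2 * h)) ^ 2 * (F t - m) ^ 2 + deriv F t ^ 2 ≤
        2 * ∫ t in Ioo (-h) h, deriv F t ^ 2 := by
  have h1 : IntegrableOn (deriv F) (Ioo (-h) h) := by
    have hm : AEStronglyMeasurable (deriv F) (volume.restrict (Ioo (-h) h)) :=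
      ((measurable_deriv F).aestronglyMeasurable)
    exact ((memLp_two_iff_integrable_sq hm).2 hI).integrable one_le_two
  have h1' : IntervalIntegrable (deriv F) volume (-h) h := by
    rw [intervalIntegrable_iff_integrableOn_Ioo_of_le (by linarith)]; exact h1
  have h2' : IntervalIntegrable (fun t => deriv F t ^ 2) volume (-h) h := by
    rw [intervalIntegrable_iff_integrableOn_Ioo_of_le (by linarith)]; exact hI
  set P : ℝ → ℝ := fun t => ∫ s in (0 : ℝ)..t, deriv F s with hP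
  have hcont : ContinuousOn P (Icc (-h) h) := by
    rw [← uIcc_of_le (by linarith : -h ≤ h)]
    exact intervalIntegral.continuousOn_primitive_interval' h1'
      (by rw [uIcc_of_le (by linarith : -h ≤ h)]; constructor <;> linarith)
  have hPd : ∀ t ∈ Ioo (-h) h, HasDerivAt P (deriv F t) t := by
    intro t ht
    refine intervalIntegral.integral_hasDerivAt_right (h1'.mono_set ?_) ?_ ?_
    · rw [uIcc_of_le (by linarith : -h ≤ h)]
      exact uIcc_subset_Icc ⟨by linarith, h0.le⟩ ⟨ht.1.le, ht.2.le⟩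
    · exact ⟨Ioo (-h) h, isOpen_Ioo.mem_nhds ht, h1.1⟩
    · exact ((hF.continuousOn_deriv_of_isOpen isOpen_Ioo le_rfl) t ht).continuousAt
        (isOpen_Ioo.mem_nhds ht)
  have hFP : ∀ t ∈ Ioo (-h) h, F t = F 0 + P t := by
    intro t ht
    have hsub : uIcc 0 t ⊆ Ioo (-h) h :=
      ordConnected_Ioo.uIcc_subset (show (0 : ℝ) ∈ Ioo (-h) h from ⟨by linarith, h0⟩) ht
    simp only [hP]
    rw [intervalIntegral.integral_deriv_eq_sub
      (fun s hs => (hF.contDiffAt (isOpen_Ioo.mem_nhds (hsub hs))).differentiableAt one_ne_zero)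
      (((hF.continuousOn_deriv_of_isOpen isOpen_Ioo le_rfl).mono hsub).intervalIntegrable)]
    ring
  set k : ℝ := (∫ t in (-h)..h, P t) / (2 * h) with hk
  set W : ℝ → ℝ := fun t => P t - k with hWdef
  have hWc : ContinuousOn W (Icc (-h) h) := hcont.sub continuousOn_const
  have hPi : IntervalIntegrable P volume (-h) h := by
    refine ContinuousOn.intervalIntegrable ?_
    rwa [uIcc_of_le (by linarith : -h ≤ h)]
  have hzero : (∫ t in (-h)..h, W t) = 0 := by
    rw [hWdef]
    rw [intervalIntegral.integral_sub hPi intervalIntegrable_const,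
      intervalIntegral.integral_const, hk]
    simp only [smul_eq_mul]
    field_simp
    ring
  have hwir := (hW (-h) h W (deriv F) (by linarith) hWc
    (fun t ht => (hPd t ht).sub_const k) h2').1 (Or.inr hzero)
  have hWi : IntegrableOn (fun t => (π / (2 * h)) ^ 2 * W t ^ 2) (Ioo (-h) h) := by
    refine IntegrableOn.mono_set ?_ Ioo_subset_Icc_self
    exact (continuousOn_const.mul (hWc.pow 2)).integrableOn_Icc
  refine ⟨F 0 + k, ?_, ?_⟩
  · refine (hWi.add hI).congr_fun (fun t ht => ?_) measurableSet_Ioo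
    simp only [hWdef, Pi.add_apply]
    rw [hFP t ht]; ring
  · have e : ∫ t in Ioo (-h) h, (π / (2 * h)) ^ 2 * (F t - (F 0 + k)) ^ 2 + deriv F t ^ 2 =
        (π / (2 * h)) ^ 2 * (∫ t in (-h)..h, W t ^ 2) + ∫ t in Ioo (-h) h, deriv F t ^ 2 := by
      rw [intervalIntegral.integral_of_le (by linarith : -h ≤ h),
        ← integral_Ioc_eq_integral_Ioo, ← integral_Ioc_eq_integral_Ioo, ← integral_const_mul,
        ← integral_add ((integrableOn_Ioc_iff_integrableOn_Ioo).2 hWi)
          ((integrableOn_Ioc_iff_integrableOn_Ioo).2 hI), integral_Ioc_eq_integral_Ioo,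
        integral_Ioc_eq_integral_Ioo]
      refine setIntegral_congr_fun measurableSet_Ioo fun t ht => ?_
      simp only [hWdef]
      rw [hFP t ht]; ring
    rw [e]
    rw [intervalIntegral.integral_of_le (by linarith : -h ≤ h) (f := fun t => deriv F t ^ 2),
      integral_Ioc_eq_integral_Ioo] at hwir
    have hc : (π / (2 * h)) ^ 2 * ((h - -h) / π) ^ 2 = 1 := by
      have := Real.pi_pos
      field_simp
      ring
    have := mul_le_mul_of_nonneg_left hwir (sq_nonneg (π / (2 * h)))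
    rw [← mul_assoc, hc, one_mul] at this
    linarith

/-- The energy of the competitor on one sector. -/
theorem exists_sector_bound (hW : WirtingerSpec) (hr : 0 < r) (hδ : |δ| < 1) (h0 : 0 < h)
    {F : ℝ → ℝ} (hF : ContDiffOn ℝ 1 F (Ioo (-h) h))
    (hI : IntegrableOn (fun t => deriv F t ^ 2) (Ioo (-h) h)) :
    ∃ m, ∫⁻ z in ball x r ∩ sector x r c δ h, ENNReal.ofReal (gradSq (sectorFn x r c δ h F m) z)
      ≤ ENNReal.ofReal (2 * h / π * ∫ t in Ioo (-h) h, deriv F t ^ 2) := by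
  obtain ⟨m, hmi, hm⟩ := exists_mean hW h0 hF hI
  refine ⟨m, ?_⟩
  set S := ball x r ∩ sector x r c δ h with hS
  have hSm : MeasurableSet S := (isOpen_ball.inter isOpen_sector).measurableSet
  have hd : ∀ z ∈ S, ∃ d, HasDerivAt (strip x r c δ) d z :=
    fun z hz => exists_hasDerivAt_strip hr.ne' hz.2
  have hD : ∀ z ∈ S, HasDerivAt (strip x r c δ) (deriv (strip x r c δ) z) z :=
    fun z hz => (hd z hz).choose_spec.differentiableAt.hasDerivAt
  have hG : ∀ z ∈ S, gradSq (sectorFn x r c δ h F m) z =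
      Complex.normSq (deriv (strip x r c δ) z) * gradSq (model h F m) (strip x r c δ z) := by
    intro z hz
    refine gradSq_comp_conformal (hD z hz) ?_
    have him : (strip x r c δ z).im ∈ Ioo (-h) h := abs_lt.1 (strip_mapsTo hr hδ hz).2
    have hFd : DifferentiableAt ℝ F (strip x r c δ z).im :=
      (hF.contDiffAt (isOpen_Ioo.mem_nhds him)).differentiableAt one_ne_zero
    unfold model
    fun_prop
  calc ∫⁻ z in S, ENNReal.ofReal (gradSq (sectorFn x r c δ h F m) z)
      = ∫⁻ z in S, ENNReal.ofReal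
          |((ContinuousLinearMap.toSpanSingleton ℂ (deriv (strip x r c δ) z)).restrictScalars ℝ).det|
          * ENNReal.ofReal (gradSq (model h F m) (strip x r c δ z)) := by
        refine setLIntegral_congr_fun hSm fun z hz => ?_
        simp only [abs_det_restrictScalars]
        rw [hG z hz, ENNReal.ofReal_mul (Complex.normSq_nonneg _)]
    _ = ∫⁻ Z in strip x r c δ '' S, ENNReal.ofReal (gradSq (model h F m) Z) :=
        (lintegral_image_eq_lintegral_abs_det_fderiv_mul volume hSm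
          (fun z hz => ((hD z hz).hasFDerivAt.restrictScalars ℝ).hasFDerivWithinAt)
          ((strip_injOn hr.ne' hδ).mono inter_subset_right)
          (fun Z => ENNReal.ofReal (gradSq (model h F m) Z))).symm
    _ ≤ ∫⁻ Z in {Z : ℂ | Z.re < 0 ∧ |Z.im| < h}, ENNReal.ofReal (gradSq (model h F m) Z) :=
        lintegral_mono_set (strip_mapsTo hr hδ).image_subset
    _ = ∫⁻ Z in {Z : ℂ | Z.re < 0 ∧ |Z.im| < h}, ENNReal.ofReal
          (Real.exp (2 * (π / (2 * h)) * Z.re) *
            ((π / (2 * h)) ^ 2 * (F Z.im - m) ^ 2 + deriv F Z.im ^ 2)) := by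
        refine setLIntegral_congr_fun ?_ fun Z hZ => ?_
        · exact ((isOpen_Iio.preimage Complex.continuous_re).inter
            (isOpen_Iio.preimage Complex.continuous_im.abs)).measurableSet
        · simp only [gradSq_model hF m (abs_lt.1 hZ.2)]
    _ ≤ ENNReal.ofReal (h / π) *
          ∫⁻ t in Ioo (-h) h, ENNReal.ofReal ((π / (2 * h)) ^ 2 * (F t - m) ^ 2 + deriv F t ^ 2) :=
        lintegral_strip h0 fun t => (π / (2 * h)) ^ 2 * (F t - m) ^ 2 + deriv F t ^ 2
    _ ≤ ENNReal.ofReal (2 * h / π * ∫ t in Ioo (-h) h, deriv F t ^ 2) := by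
        rw [← ofReal_integral_eq_lintegral_ofReal hmi
            (Eventually.of_forall fun t => by positivity),
          ← ENNReal.ofReal_mul (by positivity)]
        refine ENNReal.ofReal_le_ofReal ?_
        have hp : 0 ≤ h / π := by positivity
        have := mul_le_mul_of_nonneg_left hm hp
        calc _ ≤ h / π * (2 * ∫ t in Ioo (-h) h, deriv F t ^ 2) := this
          _ = _ := by ring

end Vale.Agent.P128.Cone
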